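import Vale.Agent.N105C.Main

open MeasureTheory Filter Topology ProbabilityTheory Set
open scoped ENNReal NNReal

namespace Vale.Agent.Results.P105.A0Regularity

open Vale.Agent.N105C

/-- **Regular Bernoulli convolutions.** `law fair lam` is the Bernoulli convolution.
(0) `law p lam` is the law of `∑ ε_n lam ^ n` for every i.i.d. sequence `ε_n` of law `p`.
(1) For every bounded digit law: criteria for a density in an Orlicz class (`L ^ q`, `L log L`) and
for a bounded density, read on finite sums at roots of `∑_{k ∈ D} η ^ k = 1` near `lam`.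
(2) A nonempty set of singular parameters without isolated points has a singular transcendental
parameter in its closure. -/
theorem result :
    (Digit fair ∧ ∀ p, Digit p → ∀ lam ∈ Ioo (0 : ℝ) 1, ∀ (Ω : Type) [MeasurableSpace Ω]
      (P : Measure Ω) (ε : ℕ → Ω → ℝ), iIndepFun ε P → (∀ n, HasLaw (ε n) p P) →
        (∀ᵐ ω ∂P, Summable fun n => ε n ω * lam ^ n) ∧
        HasLaw (fun ω => ∑' n, ε n ω * lam ^ n) (law p lam) P) ∧
    ((∀ a : ℝ, 0 < a → Gauge (· ^ a)) ∧ (Gauge fun t => (Real.log (1 + t)).toNNReal) ∧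
      ∀ lam ∈ Ico (1 / 2 : ℝ) 1, ∀ p, Digit p →
        (∀ φ, Gauge φ → ((∃ f : ℝ → ℝ≥0, Measurable f ∧ law p lam = volume.withDensity (f ·) ∧
          ∫⁻ x, f x * φ (f x) < ∞) ↔ ∃ C : ℝ≥0, ∃ᶠ n in atTop, ∃ η ∈ near lam n,
            ∫⁻ x, φ (dens p η n x) ∂part p η n ≤ C)) ∧
        ((∃ C : ℝ≥0, law p lam ≤ C • volume) ↔
          ∃ C : ℝ≥0, ∃ᶠ n in atTop, ∃ η ∈ near lam n, ∀ x, dens p η n x ≤ C)) ∧
    ∀ p, Digit p → ∀ T ⊆ sing p, T.Nonempty → Preperfect T →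
      ∃ lam ∈ sing p ∩ closure T, Transcendental ℚ lam := by
  refine ⟨⟨⟨inferInstance, 1, fair_bdd⟩, ?_⟩, ⟨fun _ => gauge_pow, gauge_log, ?_⟩, ?_⟩
  · rintro p ⟨_, R, h⟩ lam ⟨h0, h1⟩ Ω _ P ε a b
    exact has_law h h0 h1 a b
  · rintro lam ⟨h0, h1⟩ p ⟨_, R, h⟩
    exact ⟨fun φ => den_iff h h0 h1, sup_iff h h0 h1⟩
  · rintro p ⟨_, R, h⟩ T
    exact baire (gdelta h)

end Vale.Agent.Results.P105.A0Regularity
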